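import Vale.Agent.P058.RQ.Nat0

/-! # From natural number indices to `ZMod`: sums, pointwise relation, reachability -/

namespace Vale.Agent.P058.RQ

open Vale.Agent.P058

/-- [B1] `cases n`; `ZMod (n+1) = Fin (n+1)` definitionally, `ZMod.val` is `Fin.val`;
`Fin.sum_univ_eq_sum_range`. -/
lemma sum_zmod (n : ℕ) [NeZero n] (f : ℕ → ℝ) :
    ∑ k : ZMod n, f k.val = ∑ r ∈ Finset.range n, f r := by
  cases n with
  | zero => exact absurd rfl (NeZero.ne 0)
  | succ n => exact Fin.sum_univ_eq_sum_range f (n + 1)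

variable (N M : ℕ) [NeZero N] [NeZero M]

/-- [B2] `Fintype.sum_prod_type`, `Fintype.sum_bool`, `sum_zmod`, `Finset.sum_const`,
`ZMod.card`; the design 1 part does not depend on the `ZMod (N+1)` coordinate (factor `N + 1`), the
design 0 part does not depend on the `ZMod N` coordinate (factor `N`). -/
lemma sum_vec (F1 F0 : ℕ → ℕ → ℝ) :
    ∑ ω : Om N M, (if ω.1.1 then F1 ω.1.2.val ω.2.1.val else F0 ω.1.2.val ω.2.2.val) =
      (N + 1) * ∑ r ∈ Finset.range (2 * M), ∑ t ∈ Finset.range N, F1 r t +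
        N * ∑ r ∈ Finset.range (2 * M), ∑ t ∈ Finset.range (N + 1), F0 r t := by
  have h2M : NeZero (2 * M) := ⟨by have := NeZero.ne M; omega⟩
  simp only [Om, Fintype.sum_prod_type, Fintype.sum_bool, if_true, Bool.false_eq_true, if_false,
    Finset.sum_const, Finset.card_univ, ZMod.card, nsmul_eq_mul]
  have e1 : ∀ r : ℕ, ∑ t : ZMod N, ((N + 1 : ℕ) : ℝ) * F1 r t.val
      = (N + 1) * ∑ t ∈ Finset.range N, F1 r t := by
    intro r
    rw [← Finset.mul_sum, sum_zmod N (fun t => F1 r t)]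
    push_cast; ring
  have e0 : ∀ r : ℕ, (N : ℝ) * ∑ t : ZMod (N + 1), F0 r t.val
      = N * ∑ t ∈ Finset.range (N + 1), F0 r t := by
    intro r
    rw [sum_zmod (N + 1) (fun t => F0 r t)]
  simp only [e1, e0]
  rw [sum_zmod (2 * M) (fun r => (N + 1 : ℝ) * ∑ t ∈ Finset.range N, F1 r t),
    sum_zmod (2 * M) (fun r => (N : ℝ) * ∑ t ∈ Finset.range (N + 1), F0 r t),
    ← Finset.mul_sum, ← Finset.mul_sum]

variable (x y l1 l0 : ℝ)

/-- [B3] rewrite the summand as `if ω.1.1 then l1^2 * (C1 - A1)^2 else l0^2 * (C0 - A0)^2`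
(unfold `vec`, `split_ifs`, `ring`), `sum_vec`, then `sq1`, `sq0` under the sums
(`Finset.sum_congr`, `Finset.mem_range`), `Finset.mul_sum`, `cnt1`, `cnt0`. -/
lemma sum_sq_vec :
    ∑ ω : Om N M, (vec N M (C1 N M x y) (C0 N M x y) l1 l0 ω -
        vec N M (A1 N M x y) (A0 N M x y) l1 l0 ω) ^ 2 =
      (l1 ^ 2 * (N + 1) + l0 ^ 2 * N) * (2 * (N * x + M * y) ^ 2) := by
  have hN : 0 < N := Nat.pos_of_ne_zero (NeZero.ne N)
  have hM : 0 < M := Nat.pos_of_ne_zero (NeZero.ne M)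
  have h1 : ∀ ω : Om N M, (vec N M (C1 N M x y) (C0 N M x y) l1 l0 ω -
        vec N M (A1 N M x y) (A0 N M x y) l1 l0 ω) ^ 2 =
      (if ω.1.1 then (fun r t => l1 ^ 2 * (C1 N M x y r t - A1 N M x y r t) ^ 2) ω.1.2.val ω.2.1.val
        else (fun r t => l0 ^ 2 * (C0 N M x y r t - A0 N M x y r t) ^ 2) ω.1.2.val ω.2.2.val) := by
    intro ω
    unfold vec
    split_ifs <;> ring
  rw [Finset.sum_congr rfl (fun ω _ => h1 ω),
    sum_vec N M (fun r t => l1 ^ 2 * (C1 N M x y r t - A1 N M x y r t) ^ 2)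
      (fun r t => l0 ^ 2 * (C0 N M x y r t - A0 N M x y r t) ^ 2)]
  have e1 : ∑ r ∈ Finset.range (2 * M), ∑ t ∈ Finset.range N,
      l1 ^ 2 * (C1 N M x y r t - A1 N M x y r t) ^ 2 = l1 ^ 2 * (2 * (N * x + M * y) ^ 2) := by
    rw [← cnt1 N M hN hM, Finset.mul_sum]
    refine Finset.sum_congr rfl fun r hr => ?_
    rw [Finset.mul_sum]
    refine Finset.sum_congr rfl fun t ht => ?_
    rw [sq1 N M x y hN hM (Finset.mem_range.1 hr) (Finset.mem_range.1 ht)]
  have e0 : ∑ r ∈ Finset.range (2 * M), ∑ t ∈ Finset.range (N + 1),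
      l0 ^ 2 * (C0 N M x y r t - A0 N M x y r t) ^ 2 = l0 ^ 2 * (2 * (N * x + M * y) ^ 2) := by
    rw [← cnt0 N M hM, Finset.mul_sum]
    refine Finset.sum_congr rfl fun r hr => ?_
    rw [Finset.mul_sum]
    refine Finset.sum_congr rfl fun t ht => ?_
    rw [sq0 N M x y hN hM (Finset.mem_range.1 hr) (Finset.mem_range.1 ht)]
  rw [e1, e0]
  ring

/-- [B4] same with `pr1`, `pr0`. -/
lemma sum_pr_vec :
    ∑ ω : Om N M, (vec N M (C1 N M x y) (C0 N M x y) l1 l0 ω -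
        vec N M (A1 N M x y) (A0 N M x y) l1 l0 ω) *
        (vec N M (D1 N M x y) (D0 N M x y) l1 l0 ω -
          vec N M (B1 N M x y) (B0 N M x y) l1 l0 ω) =
      l1 ^ 2 * (N + 1) * (2 * ((N * x + M * y) * (x + y))) := by
  have hN : 0 < N := Nat.pos_of_ne_zero (NeZero.ne N)
  have hM : 0 < M := Nat.pos_of_ne_zero (NeZero.ne M)
  have e : ∀ ω : Om N M, (vec N M (C1 N M x y) (C0 N M x y) l1 l0 ω -
        vec N M (A1 N M x y) (A0 N M x y) l1 l0 ω) *
        (vec N M (D1 N M x y) (D0 N M x y) l1 l0 ω -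
          vec N M (B1 N M x y) (B0 N M x y) l1 l0 ω) =
      (if ω.1.1 then
        (fun r t => l1 ^ 2 * ((C1 N M x y r t - A1 N M x y r t) *
          (D1 N M x y r t - B1 N M x y r t))) ω.1.2.val ω.2.1.val
      else (fun r t => l0 ^ 2 * ((C0 N M x y r t - A0 N M x y r t) *
          (D0 N M x y r t - B0 N M x y r t))) ω.1.2.val ω.2.2.val) := by
    intro ω
    unfold vec
    split_ifs <;> ring
  rw [Finset.sum_congr rfl (fun ω _ => e ω)]
  refine (sum_vec N M (fun r t => l1 ^ 2 * ((C1 N M x y r t - A1 N M x y r t) *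
          (D1 N M x y r t - B1 N M x y r t))) (fun r t => l0 ^ 2 * ((C0 N M x y r t - A0 N M x y r t) *
          (D0 N M x y r t - B0 N M x y r t)))).trans ?_
  have e1 : ∑ r ∈ Finset.range (2 * M), ∑ t ∈ Finset.range N,
      l1 ^ 2 * ((C1 N M x y r t - A1 N M x y r t) * (D1 N M x y r t - B1 N M x y r t)) =
      l1 ^ 2 * (2 * ((N * x + M * y) * (x + y))) := by
    rw [← cnt1 N M hN hM, Finset.mul_sum]
    refine Finset.sum_congr rfl fun r hr => ?_
    rw [Finset.mul_sum]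
    refine Finset.sum_congr rfl fun t ht => ?_
    rw [pr1 N M x y hN hM (Finset.mem_range.mp hr) (Finset.mem_range.mp ht)]
  have e0 : ∑ r ∈ Finset.range (2 * M), ∑ t ∈ Finset.range (N + 1),
      l0 ^ 2 * ((C0 N M x y r t - A0 N M x y r t) * (D0 N M x y r t - B0 N M x y r t)) = 0 := by
    refine Finset.sum_eq_zero fun r _ => Finset.sum_eq_zero fun t _ => ?_
    rw [pr0, mul_zero]
  rw [e1, e0]
  ring

/-- [B5] unfold `vec`, `split_ifs`; `rel1` / `rel0` with `ZMod.val_lt`, multiplied by `l1` / `l0`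
(`linear_combination l1 * rel1 ..`). -/
lemma rel_vec (ω : Om N M) :
    (x + y) * (M * y * vec N M (A1 N M x y) (A0 N M x y) l1 l0 ω +
        N * x * vec N M (C1 N M x y) (C0 N M x y) l1 l0 ω) =
      (N * x + M * y) * (y * vec N M (B1 N M x y) (B0 N M x y) l1 l0 ω +
        x * vec N M (D1 N M x y) (D0 N M x y) l1 l0 ω) := by
  have hN : 0 < N := Nat.pos_of_ne_zero (NeZero.ne N)
  have hM : 0 < M := Nat.pos_of_ne_zero (NeZero.ne M)
  unfold vec
  split_ifs
  · have := rel1 N M x y hN hM (ZMod.val_lt ω.1.2) (ZMod.val_lt ω.2.1)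
    linear_combination l1 * this
  · have := rel0 N M x y hN hM (ZMod.val_lt ω.1.2) (ZMod.val_lt ω.2.2)
    linear_combination l0 * this

/-- [B6] `reachG_of_abs ReachG.base`; unfold `vec`, `C1`, `C0`, `split_ifs`; `mul_neg`. -/
lemma reach_c :
    ReachG (normPerms (negP : Equiv.Perm (Bool × ZMod (2 * M))))
      (vec N M (A1 N M x y) (A0 N M x y) l1 l0) (vec N M (C1 N M x y) (C0 N M x y) l1 l0) := by
  refine reachG_of_abs ReachG.base (fun ω => ?_)
  unfold vec C1 C0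
  split_ifs
  · right; ring
  · left; rfl
  · right; ring
  · left; rfl

/-- [B7] `ReachG.transl v (ReachG.perm negP (Or.inr rfl) ReachG.base)` with
`v l = ((vv1 N M l.2.val : ℕ), (vv0 N M l.2.val : ℕ))` is the vector
`ω ↦ a ((ω.1.1, -ω.1.2), ω.2 + v ω.1)`.  Pointwise equality with `b`: `B1_eq`, `B0_eq`,
`ZMod.neg_val'`, `ZMod.val_add`, `ZMod.val_natCast`, `Nat.add_mod_mod`. -/
lemma reach_b :
    ReachG (normPerms (negP : Equiv.Perm (Bool × ZMod (2 * M))))
      (vec N M (A1 N M x y) (A0 N M x y) l1 l0) (vec N M (B1 N M x y) (B0 N M x y) l1 l0) := by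
  have hN : 0 < N := Nat.pos_of_ne_zero (NeZero.ne N)
  have hM : 0 < M := Nat.pos_of_ne_zero (NeZero.ne M)
  have h := ReachG.transl (P := normPerms (negP : Equiv.Perm (Bool × ZMod (2 * M))))
    (a := vec N M (A1 N M x y) (A0 N M x y) l1 l0)
    (fun l : Bool × ZMod (2 * M) =>
      (((vv1 N M l.2.val : ℕ) : ZMod N), ((vv0 N M l.2.val : ℕ) : ZMod (N + 1))))
    (ReachG.perm negP (Or.inr rfl) ReachG.base)
  have e : vec N M (B1 N M x y) (B0 N M x y) l1 l0 = fun ω : Om N M =>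
      vec N M (A1 N M x y) (A0 N M x y) l1 l0 (negP ω.1, ω.2 +
        (((vv1 N M ω.1.2.val : ℕ) : ZMod N), ((vv0 N M ω.1.2.val : ℕ) : ZMod (N + 1)))) := by
    funext ω
    obtain ⟨⟨b, κ⟩, ⟨t1, t0⟩⟩ := ω
    have hκ : κ.val < 2 * M := ZMod.val_lt κ
    have ht1 : t1.val < N := ZMod.val_lt t1
    have ht0 : t0.val < N + 1 := ZMod.val_lt t0
    have e1 : (-κ).val = (2 * M - κ.val) % (2 * M) := ZMod.neg_val' κ
    have e2 : (t1 + ((vv1 N M κ.val : ℕ) : ZMod N)).val = (t1.val + vv1 N M κ.val) % N := by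
      rw [ZMod.val_add, ZMod.val_natCast, Nat.add_mod_mod]
    have e3 : (t0 + ((vv0 N M κ.val : ℕ) : ZMod (N + 1))).val =
        (t0.val + vv0 N M κ.val) % (N + 1) := by
      rw [ZMod.val_add, ZMod.val_natCast, Nat.add_mod_mod]
    cases b
    · simp only [vec, negP, Equiv.coe_fn_mk, Prod.mk_add_mk, Bool.false_eq_true, if_false]
      rw [e1, e3, ← B0_eq N M x y hN hM hκ ht0]
    · simp only [vec, negP, Equiv.coe_fn_mk, Prod.mk_add_mk, if_true]
      rw [e1, e2, ← B1_eq N M x y hN hM hκ ht1]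
  rw [e]
  exact h

/-- [B8] from `reach_b`: `ReachG.perm negP _ (ReachG.perm (transl fun _ => 1) (Or.inl ⟨_, rfl⟩) reach_b)`
is the vector `ω ↦ b ((ω.1.1, -ω.1.2 + 1), ω.2)`; then `reachG_of_abs` with `D1_eq`, `D0_eq`;
`(-κ + 1).val = (2M - κ.val + 1) % (2M)` by `ZMod.val_add`, `ZMod.neg_val'`, `ZMod.val_one_eq_one_mod`,
`Nat.add_mod`. -/
lemma reach_d :
    ReachG (normPerms (negP : Equiv.Perm (Bool × ZMod (2 * M))))
      (vec N M (A1 N M x y) (A0 N M x y) l1 l0) (vec N M (D1 N M x y) (D0 N M x y) l1 l0) := by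
  have hM : 0 < M := Nat.pos_of_ne_zero (NeZero.ne M)
  have h := ReachG.perm (P := normPerms (negP : Equiv.Perm (Bool × ZMod (2 * M))))
    negP (Or.inr rfl)
    (ReachG.perm (P := normPerms (negP : Equiv.Perm (Bool × ZMod (2 * M))))
      (transl fun _ : Bool => (1 : ZMod (2 * M))) (Or.inl ⟨_, rfl⟩) (reach_b N M x y l1 l0))
  refine reachG_of_abs h (fun ω => ?_)
  obtain ⟨⟨b, κ⟩, ⟨t1, t0⟩⟩ := ω
  have hκ : κ.val < 2 * M := ZMod.val_lt κ
  have e1 : (-κ + 1).val = (2 * M - κ.val + 1) % (2 * M) := by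
    rw [ZMod.val_add, ZMod.neg_val', ZMod.val_one_eq_one_mod, ← Nat.add_mod]
  cases b
  · simp only [vec, negP, transl, Equiv.coe_fn_mk, Bool.false_eq_true, if_false]
    rw [e1]
    rcases D0_eq N M x y hM t0.val hκ with h0 | h0
    · left; rw [h0]
    · right; rw [h0]; ring
  · simp only [vec, negP, transl, Equiv.coe_fn_mk, if_true]
    rw [e1]
    left; rw [D1_eq N M x y hM t1.val hκ]

end Vale.Agent.P058.RQ
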