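import Vale.Agent.P058.RQ.Tower

/-!
# Two designs on half-rows (paper proof: notes/P058_ramsey_quad.md)

`N, M ≥ 1` integers, `x, y > 0` reals, `val i j = (i - N/2) x + (j - M/2) y` (so
`val (N-i) (M-j) = - val i j`).  Half-rows are indexed by `r < 2 M` (the residue `κ` mod `2 M`):
`r = 0` or `M < r`: type P1, row `j = (2M - r) % 2M`; `1 ≤ r ≤ M`: type P2, row `j = r - 1`.
Design 1 has the positions `t < N` in every half-row, design 0 the positions `t < N + 1`.
Cell of type P1: `m = val (t+1) j`, `b = val t j`, `d = val (t+1) (j+1)`;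
cell of type P2: `m = val t (j+1)`, `b = val (t+1) (j+1)`, `d = val t j`;   `a = c = m` except at
two special positions.
-/

namespace Vale.Agent.P058.RQ

noncomputable section

/-- centred lattice value -/
def val (N M : ℕ) (x y : ℝ) (i j : ℕ) : ℝ := ((i : ℝ) - N / 2) * x + ((j : ℝ) - M / 2) * y

section
variable (N M : ℕ) (x y : ℝ)

def A1 (r t : ℕ) : ℝ :=
  if r = 0 then val N M x y ((t + 1) % N) 0
  else if r < M then val N M x y t r
  else if r = M then (if t = 0 then val N M x y N M else val N M x y t M)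
  else val N M x y (t + 1) (2 * M - r)

def C1 (r t : ℕ) : ℝ :=
  if (r = 0 ∧ t + 1 = N) ∨ (r = M ∧ t = 0) then - A1 N M x y r t else A1 N M x y r t

def B1 (r t : ℕ) : ℝ :=
  if r = 0 then val N M x y t 0
  else if r ≤ M then val N M x y (t + 1) r
  else val N M x y t (2 * M - r)

def D1 (r t : ℕ) : ℝ :=
  if r = 0 then val N M x y (t + 1) 1
  else if r ≤ M then val N M x y t (r - 1)
  else val N M x y (t + 1) (2 * M - r + 1)

def A0 (r t : ℕ) : ℝ :=
  if r = 0 then val N M x y ((t + 1) % (N + 1)) 0
  else if r < M then (if t = N then val N M x y N 0 else val N M x y t r)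
  else if r = M then val N M x y t M
  else (if t = N then val N M x y N 0 else val N M x y (t + 1) (2 * M - r))

def C0 (r t : ℕ) : ℝ :=
  if (r = 0 ∨ r = M) ∧ t = N then - A0 N M x y r t else A0 N M x y r t

def B0 (r t : ℕ) : ℝ :=
  if t = N then (if r = M then - val N M x y N 0 else val N M x y N 0) else B1 N M x y r t

def D0 (r t : ℕ) : ℝ :=
  if t = N then B0 N M x y r t else D1 N M x y r t

/-- the shift (in `ℤ / N`) of half-row `r` in design 1 -/
def vv1 (r : ℕ) : ℕ := if r = 0 then N - 1 else if r = M then 1 else 0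

/-- the shift (in `ℤ / (N+1)`) of half-row `r` in design 0 -/
def vv0 (r : ℕ) : ℕ := if r = 0 then N else if r = M then 1 else 0

end

/-- the coordinates: (design, half-row), (position in design 1, position in design 0) -/
abbrev Om (N M : ℕ) := (Bool × ZMod (2 * M)) × (ZMod N × ZMod (N + 1))

/-- the concatenation of `l1 •` (a vector of design 1) and `l0 •` (a vector of design 0) -/
def vec (N M : ℕ) (F1 F0 : ℕ → ℕ → ℝ) (l1 l0 : ℝ) (ω : Om N M) : ℝ :=
  if ω.1.1 then l1 * F1 ω.1.2.val ω.2.1.val else l0 * F0 ω.1.2.val ω.2.2.val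

end

end Vale.Agent.P058.RQ
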