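import Vale.Agent.P058.RQ.Bridge
import Vale.Agent.P058.RQ.Geom

/-! # New Ramsey quadrilaterals -/

namespace Vale.Agent.P058.RQ

open Vale.Agent.P058 Vale.Agent.P058.Quad
open scoped RealInnerProductSpace

theorem ramsey_core {n : ℕ} (A B C D O : E n) (r p q : ℝ) (hA : dist A O = r) (hB : dist B O = r)
    (hC : dist C O = r) (hD : dist D O = r) (hp0 : 0 < p) (hp1 : p < 1) (hq0 : 0 < q) (hq1 : q < 1)
    (hrel : (1 - p) • A + p • C = (1 - q) • B + q • D) (hAC : A ≠ C) (N M : ℕ) (hN : 0 < N)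
    (hM : 0 < M) (hratio : p * (1 - q) * M = q * (1 - p) * N) (h0 : 0 ≤ ⟪C - A, D - B⟫)
    (h1 : ⟪C - A, D - B⟫ * (N * q + M * (1 - q)) ≤ ‖C - A‖ ^ 2) :
    IsRamsey ({A, B, C, D} : Set (E n)) := by
  have : NeZero N := ⟨hN.ne'⟩
  have : NeZero M := ⟨hM.ne'⟩
  have hW := power_of_point' A B C D O r p q hA hB hC hD hrel
  have hNr : (0 : ℝ) < N := by exact_mod_cast hN
  have hMr : (0 : ℝ) < M := by exact_mod_cast hM
  set G : ℝ := N * q + M * (1 - q) with hG
  have hGpos : 0 < G := by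
    have : 0 < 1 - q := by linarith
    positivity
  have hU : 0 < ‖C - A‖ ^ 2 := by
    have : 0 < ‖C - A‖ := norm_pos_iff.2 (sub_ne_zero.2 (Ne.symm hAC))
    positivity
  set U : ℝ := ‖C - A‖ ^ 2 with hUdef
  set Sg : ℝ := ⟪C - A, D - B⟫ with hS
  set θ : ℝ := Sg * G / U with hθ
  have hθ0 : 0 ≤ θ := by positivity
  have hθ1 : θ ≤ 1 := by
    rw [hθ, div_le_one hU]; exact h1
  set l1 : ℝ := Real.sqrt (θ / (N + 1)) with hl1
  set l0 : ℝ := Real.sqrt ((1 - θ) / N) with hl0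
  have e1 : l1 ^ 2 * (N + 1) = θ := by
    rw [hl1, Real.sq_sqrt (by positivity)]; field_simp
  have e0 : l0 ^ 2 * N = 1 - θ := by
    rw [hl0, Real.sq_sqrt (div_nonneg (by linarith) hNr.le)]; field_simp
  have hGp : G * p = N * q := by rw [hG]; linear_combination hratio
  have hsq := sum_sq_vec N M q (1 - q) l1 l0
  have hpr := sum_pr_vec N M q (1 - q) l1 l0
  rw [e1, e0, ← hG, add_sub_cancel, one_mul] at hsq
  rw [e1, ← hG] at hpr
  refine isRamsey_of_config _ (towerOK_neg (Lam0 := Bool) (S0 := ZMod (2 * M))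
    (Z := ZMod N × ZMod (N + 1))) A B C D p q hq0 hq1
    (vec N M (A1 N M q (1 - q)) (A0 N M q (1 - q)) l1 l0)
    (vec N M (B1 N M q (1 - q)) (B0 N M q (1 - q)) l1 l0)
    (vec N M (C1 N M q (1 - q)) (C0 N M q (1 - q)) l1 l0)
    (vec N M (D1 N M q (1 - q)) (D0 N M q (1 - q)) l1 l0)
    (reach_b N M _ _ _ _) (reach_c N M _ _ _ _) (reach_d N M _ _ _ _) ?_ ?_ hrel hAC ?_ hW
  · intro ω
    have h := rel_vec N M q (1 - q) l1 l0 ω
    rw [← hG] at h
    apply mul_left_cancel₀ hGpos.ne'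
    set a := vec N M (A1 N M q (1 - q)) (A0 N M q (1 - q)) l1 l0 ω
    set b := vec N M (B1 N M q (1 - q)) (B0 N M q (1 - q)) l1 l0 ω
    set c := vec N M (C1 N M q (1 - q)) (C0 N M q (1 - q)) l1 l0 ω
    set d := vec N M (D1 N M q (1 - q)) (D0 N M q (1 - q)) l1 l0 ω
    linear_combination h + (c - a) * hGp + a * hG
  · rw [hsq]; positivity
  · rw [hsq, hpr, hθ]
    field_simp
    ring

/-- Cyclic quadrilateral `ABCD` with `M |AB|² = N |CD|²` and
`- |AC| |BD| / √(N M) ≤ ⟪C - A, D - B⟫ ≤ 0`. -/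
theorem ramsey_quad {n : ℕ} (A B C D O : E n) (r p q : ℝ) (hA : dist A O = r) (hB : dist B O = r)
    (hC : dist C O = r) (hD : dist D O = r) (hp0 : 0 < p) (hp1 : p < 1) (hq0 : 0 < q) (hq1 : q < 1)
    (hrel : (1 - p) • A + p • C = (1 - q) • B + q • D) (hAC : A ≠ C) (hCD : C ≠ D) (N M : ℕ)
    (hN : 0 < N) (hM : 0 < M) (hside : (M : ℝ) * dist A B ^ 2 = N * dist C D ^ 2)
    (h0 : ⟪C - A, D - B⟫ ≤ 0)
    (h1 : (N : ℝ) * M * ⟪C - A, D - B⟫ ^ 2 ≤ ‖C - A‖ ^ 2 * ‖D - B‖ ^ 2) :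
    IsRamsey ({A, B, C, D} : Set (E n)) := by
  have hW := power_of_point' A B C D O r p q hA hB hC hD hrel
  have hsr := side_ratio A B C D p q hrel hW
  have hNr : (0 : ℝ) < N := by exact_mod_cast hN
  have hMr : (0 : ℝ) < M := by exact_mod_cast hM
  have hcd : 0 < dist C D ^ 2 := by
    have : 0 < dist C D := dist_pos.2 hCD
    positivity
  -- the ratio
  have hratio : p * q * M = (1 - q) * (1 - p) * N := by
    have : ((1 - p) * (1 - q) * N - p * q * M) * dist C D ^ 2 = 0 := by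
      linear_combination (M : ℝ) * hsr - (1 - p) * (1 - q) * hside
    rcases mul_eq_zero.1 this with h | h
    · linarith
    · exact absurd h hcd.ne'
  have hrel' : (1 - p) • A + p • C = (1 - (1 - q)) • D + (1 - q) • B := by
    rw [hrel, add_comm]; congr 1; congr 1; ring
  have hinner : ⟪C - A, B - D⟫ = - ⟪C - A, D - B⟫ := by
    rw [← neg_sub D B, inner_neg_right]
  set U : ℝ := ‖C - A‖ ^ 2 with hU
  set V : ℝ := ‖D - B‖ ^ 2 with hV
  set S : ℝ := ⟪C - A, D - B⟫ with hS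
  have hU0 : 0 ≤ U := by positivity
  have hq1' : 0 < 1 - q := by linarith
  have hp1' : 0 < 1 - p := by linarith
  set a : ℝ := N * (1 - q) with ha
  set c : ℝ := M * q with hc
  have ha0 : 0 < a := by positivity
  have hc0 : 0 < c := by positivity
  have hpc : p * c = (1 - p) * a := by rw [ha, hc]; linear_combination hratio
  have hp : (a + c) * p = a := by linear_combination hpc
  have hp' : (a + c) * (1 - p) = c := by linear_combination -hpc
  have hkey : ((-S) * (a + c)) ^ 2 ≤ U ^ 2 := by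
    -- a c S^2 = N M q (1-q) S^2 ≤ q (1-q) U V = p (1-p) U^2
    have e1 : a * c * S ^ 2 ≤ p * (1 - p) * U * U := by
      have : q * (1 - q) * ((N : ℝ) * M * S ^ 2) ≤ q * (1 - q) * (U * V) :=
        mul_le_mul_of_nonneg_left h1 (by positivity)
      calc a * c * S ^ 2 = q * (1 - q) * ((N : ℝ) * M * S ^ 2) := by rw [ha, hc]; ring
        _ ≤ q * (1 - q) * (U * V) := this
        _ = p * (1 - p) * U * U := by linear_combination (-U) * hW
    have e2 : (a + c) ^ 2 * (a * c * S ^ 2) ≤ (a + c) ^ 2 * (p * (1 - p) * U * U) :=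
      mul_le_mul_of_nonneg_left e1 (by positivity)
    have e3 : (a + c) ^ 2 * (p * (1 - p) * U * U) = a * c * U ^ 2 := by
      calc (a + c) ^ 2 * (p * (1 - p) * U * U) = ((a + c) * p) * ((a + c) * (1 - p)) * U ^ 2 := by ring
        _ = a * c * U ^ 2 := by rw [hp, hp']
    have e4 : a * c * (((-S) * (a + c)) ^ 2) ≤ a * c * U ^ 2 := by
      calc a * c * (((-S) * (a + c)) ^ 2) = (a + c) ^ 2 * (a * c * S ^ 2) := by ring
        _ ≤ _ := e2
        _ = _ := e3
    exact le_of_mul_le_mul_left e4 (by positivity)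
  have hfin : (-S) * (a + c) ≤ U := by
    have := abs_le_of_sq_le_sq hkey hU0
    exact (le_abs_self _).trans this
  have hfin' : ⟪C - A, B - D⟫ * (↑N * (1 - q) + ↑M * (1 - (1 - q))) ≤ U := by
    rw [hinner]
    have e : -S * (↑N * (1 - q) + ↑M * (1 - (1 - q))) = (-S) * (a + c) := by
      rw [ha, hc]; ring
    rw [e]; exact hfin
  have := ramsey_core A D C B O r p (1 - q) hA hD hC hB hp0 hp1 (by linarith) (by linarith) hrel'
    hAC N M hN hM (by linear_combination hratio) (by rw [hinner]; linarith) hfin'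
  have hset : ({A, B, C, D} : Set (E n)) = {A, D, C, B} := by
    ext x; simp only [Set.mem_insert_iff, Set.mem_singleton_iff]; tauto
  rw [hset]; exact this

end Vale.Agent.P058.RQ
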