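import Vale.Agent.P058.RQ.Nat1

/-! # Design 0: identities on natural number indices.
For `t < N` the vectors `B0, D0` are `B1, D1`; `t = N` is the extra position. -/

namespace Vale.Agent.P058.RQ

variable (N M : ℕ) (x y : ℝ)

/-- [Z1] pointwise relation of design 0.  `t = N`: `r = 0`: `a = val 0 0`, `c = - a`,
`b = d = val N 0`; `r = M`: `a = val N M`, `c = -a`, `b = d = - val N 0`; otherwise all four are
`val N 0`.  `t < N`: `a = c = m`, as in `rel1`. -/
lemma rel0 (hN : 0 < N) (hM : 0 < M) {r t : ℕ} (hr : r < 2 * M) (ht : t < N + 1) :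
    (x + y) * (M * y * A0 N M x y r t + N * x * C0 N M x y r t) =
      (N * x + M * y) * (y * B0 N M x y r t + x * D0 N M x y r t) := by
  rcases Nat.lt_or_ge t N with htN | htN
  · have htne : t ≠ N := by omega
    have hmod : (t + 1) % (N + 1) = t + 1 := Nat.mod_eq_of_lt (by omega)
    rcases Nat.eq_zero_or_pos r with h0 | h0
    · subst h0
      simp only [A0, C0, B0, D0, B1, D1, htne, hmod, val, if_true, if_false, and_false]
      push_cast
      ring
    · have hr0 : r ≠ 0 := by omega
      rcases lt_trichotomy r M with h1 | h1 | h1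
      · have h2 : r ≤ M := h1.le
        have h3 : r ≠ M := by omega
        have h4 : ((r - 1 : ℕ) : ℝ) = (r : ℝ) - 1 := by
          rw [Nat.cast_sub (by omega)]; simp
        simp only [A0, C0, B0, D0, B1, D1, htne, val, if_true, if_false, and_false, hr0, h1, h2,
          h4]
        push_cast
        ring
      · subst h1
        have h4 : ((r - 1 : ℕ) : ℝ) = (r : ℝ) - 1 := by
          rw [Nat.cast_sub (by omega)]; simp
        simp only [A0, C0, B0, D0, B1, D1, htne, val, if_true, if_false, and_false, hr0,
          lt_irrefl, le_refl, h4]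
        push_cast
        ring
      · have h2 : ¬ r ≤ M := by omega
        have h3 : ¬ r < M := by omega
        have h5 : r ≠ M := by omega
        have h4 : ((2 * M - r : ℕ) : ℝ) = 2 * (M : ℝ) - r := by
          rw [Nat.cast_sub (by omega)]; simp
        simp only [A0, C0, B0, D0, B1, D1, htne, val, if_true, if_false, and_false, hr0, h2,
          h3, h5]
        push_cast
        rw [h4]
        ring
  · have htN' : t = N := by omega
    subst htN'
    have hmod : (t + 1) % (t + 1) = 0 := Nat.mod_self _
    rcases Nat.eq_zero_or_pos r with h0 | h0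
    · subst h0
      have h1 : (0 : ℕ) ≠ M := by omega
      simp only [A0, C0, B0, D0, hmod, val, if_true, if_false, and_true, true_or, h1]
      push_cast
      ring
    · have hr0 : r ≠ 0 := by omega
      rcases lt_trichotomy r M with h1 | h1 | h1
      · have h3 : r ≠ M := by omega
        simp only [A0, C0, B0, D0, val, if_true, if_false, and_true, hr0, h1, h3, or_self]
        push_cast
        ring
      · subst h1
        simp only [A0, C0, B0, D0, val, if_true, if_false, and_true, hr0, lt_irrefl, or_true]
        push_cast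
        ring
      · have h3 : ¬ r < M := by omega
        have h5 : r ≠ M := by omega
        simp only [A0, C0, B0, D0, val, if_true, if_false, and_true, hr0, h3, h5, or_self]
        push_cast
        ring

/-- [Z2] `b (κ, t) = a (-κ, t + v κ)` in design 0. -/
lemma B0_eq (hN : 0 < N) (hM : 0 < M) {r t : ℕ} (hr : r < 2 * M) (ht : t < N + 1) :
    B0 N M x y r t = A0 N M x y ((2 * M - r) % (2 * M)) ((t + vv0 N M r) % (N + 1)) := by
  rcases Nat.eq_zero_or_pos r with h0 | h0
  · subst h0
    have e1 : (2 * M - 0) % (2 * M) = 0 := by simp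
    have e2 : ((t + N) % (N + 1) + 1) % (N + 1) = t := by
      rw [Nat.mod_add_mod, show t + N + 1 = t + (N + 1) by ring, Nat.add_mod_right,
        Nat.mod_eq_of_lt ht]
    have h1 : (0 : ℕ) ≠ M := by omega
    simp only [B0, A0, vv0, e1, e2, if_true, B1, h1, if_false]
    split_ifs with h
    · rw [h]
    · rfl
  · have hr0 : r ≠ 0 := by omega
    rcases lt_trichotomy r M with h1 | h1 | h1
    · have e1 : (2 * M - r) % (2 * M) = 2 * M - r := Nat.mod_eq_of_lt (by omega)
      have e2 : (t + 0) % (N + 1) = t := by simpa using Nat.mod_eq_of_lt ht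
      have h3 : r ≠ M := by omega
      have h4 : 2 * M - r ≠ 0 := by omega
      have h5 : ¬ 2 * M - r < M := by omega
      have h6 : 2 * M - r ≠ M := by omega
      have h7 : 2 * M - (2 * M - r) = r := by omega
      simp only [B0, A0, vv0, e1, e2, if_false, B1, hr0, h3, h4, h5, h6, h7, h1.le, if_true]
    · subst h1
      have e1 : (2 * r - r) % (2 * r) = r := by
        rw [show 2 * r - r = r by omega]; exact Nat.mod_eq_of_lt (by omega)
      simp only [B0, A0, vv0, e1, if_false, B1, hr0, if_true, lt_irrefl, le_refl]
      split_ifs with h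
      · subst h
        rw [Nat.mod_self]
        simp only [val]
        push_cast
        ring
      · rw [Nat.mod_eq_of_lt (by omega)]
    · have e1 : (2 * M - r) % (2 * M) = 2 * M - r := Nat.mod_eq_of_lt (by omega)
      have e2 : (t + 0) % (N + 1) = t := by simpa using Nat.mod_eq_of_lt ht
      have h3 : r ≠ M := by omega
      have h4 : 2 * M - r ≠ 0 := by omega
      have h5 : 2 * M - r < M := by omega
      have h8 : ¬ r ≤ M := by omega
      simp only [B0, A0, vv0, e1, e2, if_false, B1, hr0, h3, h4, h5, h8, if_true]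

/-- [Z3] `d (κ, t) = ± b (1 - κ, t)` in design 0: for `t ≠ N` this is `D1_eq`; for `t = N` both
sides are `± val N 0`. -/
lemma D0_eq (hM : 0 < M) {r : ℕ} (t : ℕ) (hr : r < 2 * M) :
    D0 N M x y r t = B0 N M x y ((2 * M - r + 1) % (2 * M)) t ∨
      D0 N M x y r t = - B0 N M x y ((2 * M - r + 1) % (2 * M)) t := by
  by_cases h : t = N
  · simp only [D0, B0, h, if_true]
    split_ifs
    · left; rfl
    · right; rfl
    · right; simp
    · left; rfl
  · left
    simp only [D0, B0, h, if_false]
    exact D1_eq N M x y hM t hr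

/-- [Z4] -/
lemma sq0 (hN : 0 < N) (hM : 0 < M) {r t : ℕ} (hr : r < 2 * M) (ht : t < N + 1) :
    (C0 N M x y r t - A0 N M x y r t) ^ 2 =
      if (r = 0 ∨ r = M) ∧ t = N then (N * x + M * y) ^ 2 else 0 := by
  unfold C0
  by_cases h : (r = 0 ∨ r = M) ∧ t = N
  · rw [if_pos h, if_pos h]
    obtain ⟨h1 | h1, h2⟩ := h
    · subst h1 h2
      unfold A0 val
      simp only [Nat.mod_self, if_true]
      push_cast
      ring
    · subst h1 h2
      have hr0 : r ≠ 0 := by omega
      unfold A0 val
      simp only [hr0, lt_irrefl, if_true, if_false]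
      ring
  · rw [if_neg h, if_neg h]; ring

/-- [Z5] `c = a` unless `t = N`, and then `d = b`. -/
lemma pr0 (r t : ℕ) :
    (C0 N M x y r t - A0 N M x y r t) * (D0 N M x y r t - B0 N M x y r t) = 0 := by
  unfold C0 D0
  by_cases h : t = N
  · simp [h]
  · simp [h]

/-- [Z6] exactly two special positions: `(0, N)` and `(M, N)`. -/
lemma cnt0 (hM : 0 < M) (K : ℝ) :
    ∑ r ∈ Finset.range (2 * M), ∑ t ∈ Finset.range (N + 1),
      (if (r = 0 ∨ r = M) ∧ t = N then K else 0) = 2 * K := by
  have h1 : ∀ r, ∑ t ∈ Finset.range (N + 1), (if (r = 0 ∨ r = M) ∧ t = N then K else 0) =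
      (if r = 0 then K else 0) + (if r = M then K else 0) := by
    intro r
    rw [Finset.sum_eq_single N]
    · by_cases h0 : r = 0
      · have : r ≠ M := by omega
        simp [h0, this, hM.ne]
      · by_cases h2 : r = M
        · simp [h2, hM.ne']
        · simp [h0, h2]
    · intro t _ ht
      simp [ht]
    · intro h
      exact absurd (Finset.mem_range.mpr (Nat.lt_succ_self N)) h
  simp_rw [h1]
  rw [Finset.sum_add_distrib, Finset.sum_ite_eq', Finset.sum_ite_eq',
    if_pos (Finset.mem_range.mpr (by omega)), if_pos (Finset.mem_range.mpr (by omega))]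
  ring

end Vale.Agent.P058.RQ
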