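import Vale.Agent.P058.RQ.Defs

/-! # Design 1: identities on natural number indices.
All proofs: `unfold` the definitions, `split_ifs` (or `rcases` on `r = 0`, `r < M`, `r = M`, `M < r`),
`omega` for impossible cases, `Nat.mod_eq_of_lt`, `Nat.mod_self`, `Nat.cast_sub`, `push_cast`, `ring`. -/

namespace Vale.Agent.P058.RQ

variable (N M : ℕ) (x y : ℝ)

/-- [A1] pointwise relation of design 1.  Cases `r = 0` (`t + 1 < N` or `t + 1 = N`), `0 < r < M`,
`r = M` (`t = 0` or not), `M < r`; in each case unfold `val`, `push_cast [Nat.cast_sub]`, `ring`. -/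
lemma rel1 (hN : 0 < N) (hM : 0 < M) {r t : ℕ} (hr : r < 2 * M) (ht : t < N) :
    (x + y) * (M * y * A1 N M x y r t + N * x * C1 N M x y r t) =
      (N * x + M * y) * (y * B1 N M x y r t + x * D1 N M x y r t) := by
  rcases Nat.eq_zero_or_pos r with rfl | hr0
  · have hM0 : (0 : ℕ) ≠ M := by omega
    rcases Nat.lt_or_ge (t + 1) N with h1 | h1
    · have h2 : t + 1 ≠ N := by omega
      simp only [C1, A1, B1, D1, if_true, Nat.mod_eq_of_lt h1, h2, hM0, and_false, false_and,
        or_self, if_false, val]
      push_cast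
      ring
    · have h2 : t + 1 = N := by omega
      subst h2
      simp only [C1, A1, B1, D1, if_true, Nat.mod_self, true_and, true_or, val]
      push_cast
      ring
  · have hr0' : r ≠ 0 := by omega
    rcases lt_trichotomy r M with h1 | h1 | h1
    · have h2 : r ≠ M := by omega
      have h3 : r ≤ M := by omega
      have h4 : ((r - 1 : ℕ) : ℝ) = (r : ℝ) - 1 := by
        rw [Nat.cast_sub (by omega)]; simp
      simp only [C1, A1, B1, D1, hr0', h1, h2, h3, if_true, if_false, false_and, or_self, val, h4]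
      push_cast
      ring
    · subst h1
      have h4 : ((r - 1 : ℕ) : ℝ) = (r : ℝ) - 1 := by
        rw [Nat.cast_sub (by omega)]; simp
      rcases Nat.eq_zero_or_pos t with rfl | ht0
      · simp only [C1, A1, B1, D1, hr0', lt_irrefl, le_refl, if_true, if_false, false_and,
          true_and, or_true, val, h4]
        push_cast
        ring
      · have ht0' : t ≠ 0 := by omega
        simp only [C1, A1, B1, D1, hr0', ht0', lt_irrefl, le_refl, if_true, if_false, false_and,
          and_false, or_self, val, h4]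
        push_cast
        ring
    · have h2 : r ≠ M := by omega
      have h3 : ¬ r ≤ M := by omega
      have h5 : ¬ r < M := by omega
      have h4 : ((2 * M - r : ℕ) : ℝ) = 2 * (M : ℝ) - r := by
        rw [Nat.cast_sub (by omega)]; simp
      simp only [C1, A1, B1, D1, hr0', h5, h2, h3, if_false, false_and, or_self, val]
      push_cast
      rw [h4]
      ring

/-- [A2] `b (κ, t) = a (-κ, t + v κ)`.  `r = 0`: `(2M) % (2M) = 0`, `(t + (N-1)) % N + 1 ≡ t`;
`0 < r < M`: `(2M - r) % (2M) = 2M - r > M`; `r = M`: `(2M - M) % (2M) = M`, `(t+1) % N = 0` iff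
`t + 1 = N`; `M < r`: `2M - r < M`. -/
lemma B1_eq (hN : 0 < N) (hM : 0 < M) {r t : ℕ} (hr : r < 2 * M) (ht : t < N) :
    B1 N M x y r t = A1 N M x y ((2 * M - r) % (2 * M)) ((t + vv1 N M r) % N) := by
  rcases Nat.eq_zero_or_pos r with rfl | hr0
  · have e1 : (2 * M - 0) % (2 * M) = 0 := by simp
    have e2 : vv1 N M 0 = N - 1 := by simp [vv1]
    have e3 : ((t + (N - 1)) % N + 1) % N = t := by
      rcases Nat.eq_zero_or_pos t with rfl | ht0
      · have : (0 + (N - 1)) % N = N - 1 := by
          rw [Nat.zero_add]; exact Nat.mod_eq_of_lt (by omega)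
        rw [this]
        have : N - 1 + 1 = N := by omega
        rw [this, Nat.mod_self]
      · have h1 : t + (N - 1) = (t - 1) + N := by omega
        rw [h1, Nat.add_mod_right, Nat.mod_eq_of_lt (by omega : t - 1 < N)]
        have : t - 1 + 1 = t := by omega
        rw [this, Nat.mod_eq_of_lt ht]
    rw [e1, e2]
    simp only [B1, A1, if_true, e3]
  · rcases lt_trichotomy r M with h | h | h
    · have e1 : (2 * M - r) % (2 * M) = 2 * M - r := Nat.mod_eq_of_lt (by omega)
      have e2 : vv1 N M r = 0 := by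
        unfold vv1; rw [if_neg (by omega), if_neg (by omega)]
      rw [e1, e2, Nat.add_zero, Nat.mod_eq_of_lt ht]
      unfold B1 A1
      rw [if_neg (by omega), if_pos (by omega), if_neg (by omega), if_neg (by omega),
        if_neg (by omega)]
      have : 2 * M - (2 * M - r) = r := by omega
      rw [this]
    · subst h
      have e1 : (2 * r - r) % (2 * r) = r := by
        have : 2 * r - r = r := by omega
        rw [this]; exact Nat.mod_eq_of_lt (by omega)
      have e2 : vv1 N r r = 1 := by
        unfold vv1; rw [if_neg (by omega), if_pos rfl]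
      rw [e1, e2]
      unfold B1 A1
      rw [if_neg (by omega), if_pos le_rfl, if_neg (by omega), if_neg (lt_irrefl r), if_pos rfl]
      rcases Nat.lt_or_ge (t + 1) N with h1 | h1
      · rw [Nat.mod_eq_of_lt h1, if_neg (by omega)]
      · have : t + 1 = N := by omega
        rw [this, Nat.mod_self, if_pos rfl]
    · have e1 : (2 * M - r) % (2 * M) = 2 * M - r := Nat.mod_eq_of_lt (by omega)
      have e2 : vv1 N M r = 0 := by
        unfold vv1; rw [if_neg (by omega), if_neg (by omega)]
      rw [e1, e2, Nat.add_zero, Nat.mod_eq_of_lt ht]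
      unfold B1 A1
      rw [if_neg (by omega), if_neg (by omega), if_neg (by omega), if_pos (by omega)]

/-- [A3] `d (κ, t) = b (1 - κ, t)`.  Cases `r = 0`, `r = 1`, `2 ≤ r ≤ M`, `M < r`. -/
lemma D1_eq (hM : 0 < M) {r : ℕ} (t : ℕ) (hr : r < 2 * M) :
    D1 N M x y r t = B1 N M x y ((2 * M - r + 1) % (2 * M)) t := by
  rcases Nat.eq_zero_or_pos r with rfl | hr0
  · have e : (2 * M - 0 + 1) % (2 * M) = 1 % (2 * M) := by
      rw [Nat.sub_zero, Nat.add_mod_left]
    have e1 : 1 % (2 * M) = 1 := Nat.mod_eq_of_lt (by omega)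
    rw [e, e1]
    have h1 : (1 : ℕ) ≤ M := hM
    simp only [D1, B1, if_true, one_ne_zero, if_false, h1]
  · have hr0' : r ≠ 0 := by omega
    rcases Nat.eq_or_lt_of_le (show 1 ≤ r from hr0) with h1 | h1
    · subst h1
      have e : (2 * M - 1 + 1) % (2 * M) = 0 := by
        have : 2 * M - 1 + 1 = 2 * M := by omega
        rw [this, Nat.mod_self]
      rw [e]
      have h1 : (1 : ℕ) ≤ M := hM
      simp only [D1, B1, if_true, one_ne_zero, if_false, h1, Nat.sub_self]
    · have e : (2 * M - r + 1) % (2 * M) = 2 * M - r + 1 := Nat.mod_eq_of_lt (by omega)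
      rw [e]
      have h0 : 2 * M - r + 1 ≠ 0 := by omega
      rcases Nat.lt_or_ge M r with h2 | h2
      · have h3 : ¬ r ≤ M := by omega
        have h4 : 2 * M - r + 1 ≤ M := by omega
        simp only [D1, B1, hr0', h0, h3, h4, if_true, if_false]
      · have h4 : ¬ 2 * M - r + 1 ≤ M := by omega
        have h5 : 2 * M - (2 * M - r + 1) = r - 1 := by omega
        simp only [D1, B1, hr0', h0, h2, h4, if_true, if_false, h5]

/-- [A4] -/
lemma sq1 (hN : 0 < N) (hM : 0 < M) {r t : ℕ} (hr : r < 2 * M) (ht : t < N) :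
    (C1 N M x y r t - A1 N M x y r t) ^ 2 =
      if (r = 0 ∧ t + 1 = N) ∨ (r = M ∧ t = 0) then (N * x + M * y) ^ 2 else 0 := by
  unfold C1
  by_cases h : (r = 0 ∧ t + 1 = N) ∨ (r = M ∧ t = 0)
  · rw [if_pos h, if_pos h]
    rcases h with ⟨h1, h2⟩ | ⟨h1, h2⟩
    · subst h1
      unfold A1 val
      simp only [h2, Nat.mod_self, if_true]
      push_cast
      ring
    · subst h1 h2
      have hr0 : r ≠ 0 := by omega
      unfold A1 val
      simp only [hr0, lt_irrefl, if_true, if_false]
      ring
  · rw [if_neg h, if_neg h]; ring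

/-- [A5] -/
lemma pr1 (hN : 0 < N) (hM : 0 < M) {r t : ℕ} (hr : r < 2 * M) (ht : t < N) :
    (C1 N M x y r t - A1 N M x y r t) * (D1 N M x y r t - B1 N M x y r t) =
      if (r = 0 ∧ t + 1 = N) ∨ (r = M ∧ t = 0) then (N * x + M * y) * (x + y) else 0 := by
  unfold C1
  by_cases h : (r = 0 ∧ t + 1 = N) ∨ (r = M ∧ t = 0)
  · rw [if_pos h, if_pos h]
    rcases h with ⟨h1, h2⟩ | ⟨h1, h2⟩
    · subst h1
      unfold A1 B1 D1 val
      simp only [h2, Nat.mod_self, if_true]
      have : (t : ℝ) = N - 1 := by rw [← h2]; push_cast; ring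
      rw [this]
      push_cast
      ring
    · subst h1 h2
      have hr0 : r ≠ 0 := by omega
      have hc : ((r - 1 : ℕ) : ℝ) = r - 1 := by rw [Nat.cast_sub (by omega)]; simp
      unfold A1 B1 D1 val
      simp only [hr0, lt_irrefl, le_refl, if_true, if_false, hc]
      push_cast
      ring
  · rw [if_neg h, if_neg h]; ring

/-- [A6] exactly two special positions: `(0, N-1)` and `(M, 0)`.  E.g. write the indicator as
`(if r = 0 ∧ t = N - 1 then K else 0) + (if r = M ∧ t = 0 then K else 0)` (the two conditions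
exclude each other as `0 < M`), `Finset.sum_add_distrib`, `Finset.sum_ite_eq`. -/
lemma cnt1 (hN : 0 < N) (hM : 0 < M) (K : ℝ) :
    ∑ r ∈ Finset.range (2 * M), ∑ t ∈ Finset.range N,
      (if (r = 0 ∧ t + 1 = N) ∨ (r = M ∧ t = 0) then K else 0) = 2 * K := by
  have h : ∀ r ∈ Finset.range (2 * M), (∑ t ∈ Finset.range N,
      (if (r = 0 ∧ t + 1 = N) ∨ (r = M ∧ t = 0) then K else 0)) =
      (if r = 0 then K else 0) + (if r = M then K else 0) := by
    intro r _
    by_cases h1 : r = 0
    · subst h1
      have hM' : ¬ (0 = M) := by omega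
      have e : ∀ t ∈ Finset.range N, (if (0 = 0 ∧ t + 1 = N) ∨ (0 = M ∧ t = 0) then K else 0) =
          (if t = N - 1 then K else 0) := by
        intro t _
        by_cases h2 : t = N - 1
        · have : t + 1 = N := by omega
          rw [if_pos (Or.inl ⟨rfl, this⟩), if_pos h2]
        · have : ¬ (t + 1 = N) := by omega
          rw [if_neg (by tauto), if_neg h2]
      rw [Finset.sum_congr rfl e, Finset.sum_ite_eq', if_pos (Finset.mem_range.2 (by omega)),
        if_pos rfl, if_neg hM', add_zero]
    · by_cases h3 : r = M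
      · have e : ∀ t ∈ Finset.range N, (if (r = 0 ∧ t + 1 = N) ∨ (r = M ∧ t = 0) then K else 0) =
            (if t = 0 then K else 0) := by
          intro t _
          by_cases h2 : t = 0
          · rw [if_pos (Or.inr ⟨h3, h2⟩), if_pos h2]
          · rw [if_neg (by tauto), if_neg h2]
        rw [Finset.sum_congr rfl e, Finset.sum_ite_eq', if_pos (Finset.mem_range.2 hN),
          if_neg h1, if_pos h3, zero_add]
      · have e : ∀ t ∈ Finset.range N, (if (r = 0 ∧ t + 1 = N) ∨ (r = M ∧ t = 0) then K else 0) =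
            0 := by
          intro t _
          rw [if_neg (by tauto)]
        rw [Finset.sum_congr rfl e, Finset.sum_const_zero, if_neg h1, if_neg h3, add_zero]
  rw [Finset.sum_congr rfl h, Finset.sum_add_distrib, Finset.sum_ite_eq', Finset.sum_ite_eq',
    if_pos (Finset.mem_range.2 (by omega)), if_pos (Finset.mem_range.2 (by omega))]
  ring

end Vale.Agent.P058.RQ
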