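import Vale.Agent.P058.ReachG

/-!
# A tower with a reflection

`towerOK_norm`: same as `towerOK_two`, with the last permutation replaced by an arbitrary permutation
`σ` of `Lam0 × S0` normalising the family of translations.  `towerOK_neg`: the case `σ = negP`,
`(l, s) ↦ (l, -s)`.
-/

namespace Vale.Agent.P058.RQ

open Finset Vale.Agent.P058

/-- translations of `S0` depending on `Lam0`, and one more permutation `σ`. -/
def normPerms {Lam0 S0 : Type} [AddCommGroup S0] (σ : Equiv.Perm (Lam0 × S0)) :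
    Set (Equiv.Perm (Lam0 × S0)) :=
  {π | (∃ v : Lam0 → S0, π = transl v) ∨ π = σ}

theorem towerOK_norm {Lam0 S0 Z : Type} [Fintype Lam0] [Fintype S0] [AddCommGroup S0] [Fintype Z]
    [AddCommGroup Z] (σ : Equiv.Perm (Lam0 × S0))
    (hσ : ∀ w : Lam0 → S0, ∃ w' : Lam0 → S0, ∀ x : XX (Lam0 × S0) Z,
      permP (shiftP σ) (permP (shiftP (transl w)) x) =
        permP (shiftP (transl w')) (permP (shiftP σ) x)) :
    TowerOK (Lam0 × S0) Z (normPerms σ) := by
  classical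
  intro a
  obtain ⟨R₁, hR₁⟩ : ∃ R₁ : XX (Lam0 × S0) Z → XX (Lam0 × S0) Z → Prop,
      R₁ = Relation.EqvGen (fun x y => x = y ∨ ∃ ε, y = signP ε x) := ⟨_, rfl⟩
  have A₁ : Ach (KK a) R₁ := by
    rw [hR₁]
    refine ach_family (KK a) (KK_self a) (fun ε => signP ε) (KK_signP a) ?_ (fun x y => x = y)
      eq_equivalence ?_ (Ach.eq _)
    · intro ε ε' x
      funext ω
      simp [signP, mul_left_comm]
    · rintro ε x y rfl
      rfl
  have E₁ : Equivalence R₁ := by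
    rw [hR₁]; exact Relation.EqvGen.is_equivalence _
  have P₁ : ∀ (π : Equiv.Perm ((Lam0 × S0) × Z)) (x y : XX (Lam0 × S0) Z),
      R₁ x y → R₁ (permP π x) (permP π y) := by
    intro π
    rw [hR₁]
    apply eqvGen_pres
    rintro x y (rfl | ⟨ε, rfl⟩)
    · exact Relation.EqvGen.refl _
    · exact Relation.EqvGen.rel _ _ (Or.inr ⟨ε ∘ π, permP_signP π ε x⟩)
  obtain ⟨R₂, hR₂⟩ : ∃ R₂ : XX (Lam0 × S0) Z → XX (Lam0 × S0) Z → Prop,
      R₂ = Relation.EqvGen (fun x y => R₁ x y ∨ ∃ v : Lam0 × S0 → Z, y = permP (transl v) x) :=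
    ⟨_, rfl⟩
  have A₂ : Ach (KK a) R₂ := by
    rw [hR₂]
    refine ach_family (KK a) (KK_self a) (fun v : Lam0 × S0 → Z => permP (transl v))
      (fun v => KK_permP a _) ?_ R₁ E₁ (fun v => P₁ _) A₁
    intro v v' x
    funext ω
    simp [permP, transl, add_right_comm]
  have E₂ : Equivalence R₂ := by
    rw [hR₂]; exact Relation.EqvGen.is_equivalence _
  have P₂ : ∀ (π : Equiv.Perm (Lam0 × S0)) (x y : XX (Lam0 × S0) Z),
      R₂ x y → R₂ (permP (shiftP π) x) (permP (shiftP π) y) := by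
    intro π
    rw [hR₂]
    apply eqvGen_pres
    rintro x y (h | ⟨v, rfl⟩)
    · exact Relation.EqvGen.rel _ _ (Or.inl (P₁ _ _ _ h))
    · exact Relation.EqvGen.rel _ _ (Or.inr ⟨v ∘ π, shiftP_transl π v x⟩)
  obtain ⟨R₃, hR₃⟩ : ∃ R₃ : XX (Lam0 × S0) Z → XX (Lam0 × S0) Z → Prop,
      R₃ = Relation.EqvGen (fun x y => R₂ x y ∨
        ∃ w : Lam0 → S0, y = permP (shiftP (transl w)) x) := ⟨_, rfl⟩
  have A₃ : Ach (KK a) R₃ := by
    rw [hR₃]
    refine ach_family (KK a) (KK_self a) (fun w : Lam0 → S0 => permP (shiftP (transl w)))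
      (fun w => KK_permP a _) ?_ R₂ E₂ (fun w => P₂ _) A₂
    intro w w' x
    funext ω
    simp [permP, shiftP, transl, add_right_comm]
  have E₃ : Equivalence R₃ := by
    rw [hR₃]; exact Relation.EqvGen.is_equivalence _
  have P₃ : ∀ (x y : XX (Lam0 × S0) Z),
      R₃ x y → R₃ (permP (shiftP σ) x) (permP (shiftP σ) y) := by
    rw [hR₃]
    apply eqvGen_pres
    rintro x y (h | ⟨w, rfl⟩)
    · exact Relation.EqvGen.rel _ _ (Or.inl (P₂ _ _ _ h))
    · obtain ⟨w', hw'⟩ := hσ w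
      exact Relation.EqvGen.rel _ _ (Or.inr ⟨w', hw' x⟩)
  have A₄ := ach_family (KK a) (KK_self a)
      (fun _ : Unit => permP (shiftP (S := Z) σ))
      (fun _ => KK_permP a _) (fun _ _ _ => rfl) R₃ E₃ (fun _ => P₃) A₃
  have h23 : ∀ x y, R₂ x y → R₃ x y := by
    intro x y h
    rw [hR₃]
    exact Relation.EqvGen.rel _ _ (Or.inl h)
  refine ⟨_, Relation.EqvGen.is_equivalence _, A₄, ?_, ?_, ?_⟩
  · intro ε x
    refine Relation.EqvGen.rel _ _ (Or.inl (h23 _ _ ?_))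
    rw [hR₂]
    refine Relation.EqvGen.rel _ _ (Or.inl ?_)
    rw [hR₁]
    exact Relation.EqvGen.rel _ _ (Or.inr ⟨ε, rfl⟩)
  · intro v x
    refine Relation.EqvGen.rel _ _ (Or.inl (h23 _ _ ?_))
    rw [hR₂]
    exact Relation.EqvGen.rel _ _ (Or.inr ⟨v, rfl⟩)
  · rintro π (⟨w, rfl⟩ | rfl) x
    · refine Relation.EqvGen.rel _ _ (Or.inl ?_)
      rw [hR₃]
      exact Relation.EqvGen.rel _ _ (Or.inr ⟨w, rfl⟩)
    · exact Relation.EqvGen.rel _ _ (Or.inr ⟨(), rfl⟩)

/-- the reflection `(l, s) ↦ (l, -s)` -/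
def negP {Lam0 S0 : Type} [AddCommGroup S0] : Equiv.Perm (Lam0 × S0) where
  toFun ω := (ω.1, -ω.2)
  invFun ω := (ω.1, -ω.2)
  left_inv ω := by simp
  right_inv ω := by simp

theorem towerOK_neg {Lam0 S0 Z : Type} [Fintype Lam0] [Fintype S0] [AddCommGroup S0] [Fintype Z]
    [AddCommGroup Z] : TowerOK (Lam0 × S0) Z (normPerms (negP : Equiv.Perm (Lam0 × S0))) := by
  apply towerOK_norm
  intro w
  refine ⟨fun l => - w l, fun x => ?_⟩
  funext ω
  simp [permP, shiftP, transl, negP, add_comm]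

/-- changing signs arbitrarily keeps a vector reachable -/
lemma reachG_of_abs {Lam S : Type} [AddCommGroup S] {P : Set (Equiv.Perm Lam)}
    {a y z : Lam × S → ℝ} (h : ReachG P a y) (hz : ∀ ω, z ω = y ω ∨ z ω = - y ω) :
    ReachG P a z := by
  classical
  have e : z = fun ω => (((if z ω = y ω then (1 : ℤˣ) else -1 : ℤˣ) : ℤ) : ℝ) * y ω := by
    funext ω
    by_cases h1 : z ω = y ω
    · simp [h1]
    · rcases hz ω with h2 | h2
      · exact absurd h2 h1
      · rw [if_neg h1, h2]; simp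
  rw [e]
  exact ReachG.sign _ h

end Vale.Agent.P058.RQ
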